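import Vale.Agent.P365.T2.Coll863
import Vale.Agent.P365.T1a.Site

/-!
# P365 T2 / H761 / Pol: polarisation bounds at one configuration (775's (2a), note 20406)

`frozen_pol`: the first order term of the law error of the one-body entropy, multiplier `lh`.
`const_pol`: the same with a constant multiplier.
-/

set_option linter.all false

namespace P365T2.H761

open Matrix Complex P365L P365T1 P365T2.Coll863
open scoped ComplexConjugate

variable {ι : Type*} [Fintype ι] [DecidableEq ι]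
variable {A : Matrix ι ι ℝ} {W : ι → ℂ}

/-- `|∑_x e_x a_x ∑_b e_b conj(G_xb) b_b| ≤ (∑ e |a|²)^{1/2} (∑ e |b|²)^{1/2}` -/
theorem pair_le (hA : A.IsSymm) (hW : ∀ x, (W x).im < 0) (a b : ι → ℂ) :
    ‖∑ x, ((-(W x).im : ℝ) : ℂ) * a x *
        ∑ z, ((-(W z).im : ℝ) : ℂ) * (conj (Gr A W x z) * b z)‖ ≤
      Real.sqrt (∑ x, (-(W x).im) * ‖a x‖ ^ 2) * Real.sqrt (∑ z, (-(W z).im) * ‖b z‖ ^ 2) := by
  have he : ∀ x, 0 < -(W x).im := fun x => by linarith [hW x]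
  have e1 : ∀ x, (∑ z, ((-(W z).im : ℝ) : ℂ) * (conj (Gr A W x z) * b z)) =
      conj (gv A W (fun z => conj (b z)) x) := by
    intro x
    rw [gv, map_sum]
    refine Finset.sum_congr rfl fun z _ => ?_
    rw [map_mul, map_mul, Complex.conj_ofReal, Complex.conj_conj, Gr_symm hA z x]
    unfold ab
    ring
  have h1 : ‖∑ x, ((-(W x).im : ℝ) : ℂ) * a x *
        ∑ z, ((-(W z).im : ℝ) : ℂ) * (conj (Gr A W x z) * b z)‖ ≤
      ∑ x, (-(W x).im) * (‖a x‖ * ‖gv A W (fun z => conj (b z)) x‖) := by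
    refine (norm_sum_le _ _).trans (Finset.sum_le_sum fun x _ => ?_)
    rw [e1, norm_mul, norm_mul, Complex.norm_real, Real.norm_eq_abs, abs_of_pos (he x),
      RCLike.norm_conj]
    exact le_of_eq (by ring)
  have h2 : (∑ x, (-(W x).im) * (‖a x‖ * ‖gv A W (fun z => conj (b z)) x‖)) ^ 2 ≤
      (∑ x, (-(W x).im) * ‖a x‖ ^ 2) * (∑ x, (-(W x).im) * ‖gv A W (fun z => conj (b z)) x‖ ^ 2) := by
    refine Finset.sum_sq_le_sum_mul_sum_of_sq_eq_mul Finset.univ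
      (fun z _ => mul_nonneg (he z).le (sq_nonneg _))
      (fun z _ => mul_nonneg (he z).le (sq_nonneg _)) fun z _ => ?_
    ring
  have h3 : ∑ x, (-(W x).im) * ‖gv A W (fun z => conj (b z)) x‖ ^ 2 ≤
      ∑ z, (-(W z).im) * ‖b z‖ ^ 2 := by
    have h := contr hA hW (fun z => conj (b z))
    unfold ab at h
    simpa only [RCLike.norm_conj] using h
  have hS1 : 0 ≤ ∑ x, (-(W x).im) * ‖a x‖ ^ 2 :=
    Finset.sum_nonneg fun x _ => mul_nonneg (he x).le (sq_nonneg _)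
  refine h1.trans ?_
  rw [← Real.sqrt_mul hS1]
  refine Real.le_sqrt_of_sq_le (h2.trans ?_)
  exact mul_le_mul_of_nonneg_left h3 hS1

/-- Ward: `∑_b e_b conj(G_xb) c_b = Im G_xy / G_yy` -/
theorem ward_gw (hA : A.IsSymm) (hW : ∀ x, (W x).im < 0) (y x : ι) :
    ∑ b, ((-(W b).im : ℝ) : ℂ) * (conj (Gr A W x b) * gw A W y b) =
      (((Gr A W x y).im : ℝ) : ℂ) / Gr A W y y := by
  rw [Ward_apply hA hW x y, Finset.sum_div]
  refine Finset.sum_congr rfl fun b _ => ?_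
  unfold gw
  ring

theorem norm_ward_le (hA : A.IsSymm) (hW : ∀ x, (W x).im < 0) (y x : ι) :
    ‖∑ b, ((-(W b).im : ℝ) : ℂ) * (conj (Gr A W x b) * gw A W y b)‖ ≤ ‖gw A W y x‖ := by
  rw [ward_gw hA hW, norm_div, gw, norm_div, Complex.norm_real, Real.norm_eq_abs]
  exact div_le_div_of_nonneg_right (Complex.abs_im_le_norm _) (norm_nonneg _)

/-- the same from the other side: `∑_x e_x c_x conj(G_xb)` -/
theorem norm_ward_le' (hA : A.IsSymm) (hW : ∀ x, (W x).im < 0) (y b : ι) :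
    ‖∑ x, ((-(W x).im : ℝ) : ℂ) * (gw A W y x * conj (Gr A W x b))‖ ≤ ‖gw A W y b‖ := by
  have h := norm_ward_le hA hW y b
  have e : ∑ x, ((-(W x).im : ℝ) : ℂ) * (gw A W y x * conj (Gr A W x b)) =
      ∑ x, ((-(W x).im : ℝ) : ℂ) * (conj (Gr A W b x) * gw A W y x) := by
    refine Finset.sum_congr rfl fun x _ => ?_
    rw [Gr_symm hA x b]
    ring
  rw [e]
  exact h

/-- polarisation of a kernel -/
theorem pol {κ : Type*} [Fintype κ] (f : κ → ι → ℝ) (h : ι → ι → ℝ)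
    (hh : ∀ x b, h x b = ∑ j, (f j x - f j b) ^ 2) (y x b : ι) :
    h x b = h x y + h b y - 2 * ∑ j, (f j x - f j y) * (f j b - f j y) := by
  rw [hh, hh, hh, Finset.mul_sum, ← Finset.sum_add_distrib, ← Finset.sum_sub_distrib]
  exact Finset.sum_congr rfl fun j _ => by ring

/-- splitting of the double sum -/
theorem split {κ : Type*} [Fintype κ] (f : κ → ι → ℝ) (h : ι → ι → ℝ)
    (hh : ∀ x b, h x b = ∑ j, (f j x - f j b) ^ 2) (y : ι) (lh : ι → ℝ) :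
    ∑ x, ((-(W x).im * lh x : ℝ) : ℂ) * gw A W y x *
        ∑ b, ((-(W b).im * h x b : ℝ) : ℂ) * (conj (Gr A W x b) * gw A W y b) =
      (∑ x, ((-(W x).im * lh x * h x y : ℝ) : ℂ) * gw A W y x *
        ∑ b, ((-(W b).im : ℝ) : ℂ) * (conj (Gr A W x b) * gw A W y b)) +
      (∑ x, ((-(W x).im : ℝ) : ℂ) * ((lh x : ℂ) * gw A W y x) *
        ∑ b, ((-(W b).im : ℝ) : ℂ) * (conj (Gr A W x b) * ((h b y : ℂ) * gw A W y b))) -
      2 * ∑ j, ∑ x, ((-(W x).im : ℝ) : ℂ) * ((lh x * (f j x - f j y) : ℝ) * gw A W y x) *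
        ∑ b, ((-(W b).im : ℝ) : ℂ) * (conj (Gr A W x b) * (((f j b - f j y : ℝ) : ℂ) *
          gw A W y b)) := by
  rw [Finset.sum_comm (s := Finset.univ (α := κ)), Finset.mul_sum, ← Finset.sum_add_distrib,
    ← Finset.sum_sub_distrib]
  refine Finset.sum_congr rfl fun x _ => ?_
  have e1 : ∑ b, ((-(W b).im * h x b : ℝ) : ℂ) * (conj (Gr A W x b) * gw A W y b) =
      (h x y : ℂ) * ∑ b, ((-(W b).im : ℝ) : ℂ) * (conj (Gr A W x b) * gw A W y b) +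
      (∑ b, ((-(W b).im : ℝ) : ℂ) * (conj (Gr A W x b) * ((h b y : ℂ) * gw A W y b))) -
      2 * ∑ j, ((f j x - f j y : ℝ) : ℂ) *
        ∑ b, ((-(W b).im : ℝ) : ℂ) * (conj (Gr A W x b) * (((f j b - f j y : ℝ) : ℂ) *
          gw A W y b)) := by
    have e2 : ∑ j, ((f j x - f j y : ℝ) : ℂ) *
        ∑ b, ((-(W b).im : ℝ) : ℂ) * (conj (Gr A W x b) * (((f j b - f j y : ℝ) : ℂ) *
          gw A W y b)) =
        ∑ b, ((-(W b).im : ℝ) : ℂ) * (conj (Gr A W x b) * gw A W y b) *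
          ((∑ j, (f j x - f j y) * (f j b - f j y) : ℝ) : ℂ) := by
      simp only [Finset.mul_sum]
      rw [Finset.sum_comm]
      refine Finset.sum_congr rfl fun b _ => ?_
      push_cast
      rw [Finset.mul_sum]
      exact Finset.sum_congr rfl fun j _ => by ring
    rw [e2, Finset.mul_sum, Finset.mul_sum, ← Finset.sum_add_distrib, ← Finset.sum_sub_distrib]
    refine Finset.sum_congr rfl fun b _ => ?_
    rw [pol f h hh y x b]
    push_cast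
    ring
  rw [e1]
  have e3 : ∑ j, ((-(W x).im : ℝ) : ℂ) * ((lh x * (f j x - f j y) : ℝ) * gw A W y x) *
        ∑ b, ((-(W b).im : ℝ) : ℂ) * (conj (Gr A W x b) * (((f j b - f j y : ℝ) : ℂ) *
          gw A W y b)) =
      ((-(W x).im * lh x : ℝ) : ℂ) * gw A W y x * ∑ j, ((f j x - f j y : ℝ) : ℂ) *
        ∑ b, ((-(W b).im : ℝ) : ℂ) * (conj (Gr A W x b) * (((f j b - f j y : ℝ) : ℂ) *
          gw A W y b)) := by
    rw [Finset.mul_sum]
    refine Finset.sum_congr rfl fun j _ => ?_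
    push_cast
    ring
  rw [e3]
  have e4 : ((-(W x).im * lh x * h x y : ℝ) : ℂ) = ((-(W x).im * lh x : ℝ) : ℂ) * (h x y : ℂ) := by
    push_cast
    ring
  have e5 : ((-(W x).im : ℝ) : ℂ) * ((lh x : ℂ) * gw A W y x) =
      ((-(W x).im * lh x : ℝ) : ℂ) * gw A W y x := by
    push_cast
    ring
  rw [e4, e5]
  ring

/-- the cross piece -/
theorem cross_le {κ : Type*} [Fintype κ] (hA : A.IsSymm) (hW : ∀ x, (W x).im < 0) (y : ι)
    (f : κ → ι → ℝ) (h : ι → ι → ℝ) (hh : ∀ x b, h x b = ∑ j, (f j x - f j b) ^ 2)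
    {K : ℝ} (lh : ι → ℝ) (h0 : ∀ x, 0 ≤ lh x) (h1 : ∀ x, lh x ≤ K) :
    ‖∑ j, ∑ x, ((-(W x).im : ℝ) : ℂ) * ((lh x * (f j x - f j y) : ℝ) * gw A W y x) *
        ∑ b, ((-(W b).im : ℝ) : ℂ) * (conj (Gr A W x b) * (((f j b - f j y : ℝ) : ℂ) *
          gw A W y b))‖ ≤
      K * ∑ b, (-(W b).im) * ‖gw A W y b‖ ^ 2 * h b y := by
  have he : ∀ x, 0 < -(W x).im := fun x => by linarith [hW x]
  have hK : 0 ≤ K := (h0 y).trans (h1 y)
  have e1 : ∑ b, (-(W b).im) * ‖gw A W y b‖ ^ 2 * h b y =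
      ∑ j, ∑ b, (-(W b).im) * ‖gw A W y b‖ ^ 2 * (f j b - f j y) ^ 2 := by
    rw [Finset.sum_comm]
    refine Finset.sum_congr rfl fun b _ => ?_
    rw [hh, Finset.mul_sum]
  rw [e1, Finset.mul_sum]
  refine (norm_sum_le _ _).trans (Finset.sum_le_sum fun j _ => ?_)
  refine (pair_le hA hW (fun x => ((lh x * (f j x - f j y) : ℝ) : ℂ) * gw A W y x)
    (fun b => ((f j b - f j y : ℝ) : ℂ) * gw A W y b)).trans ?_
  set N := ∑ b, (-(W b).im) * ‖gw A W y b‖ ^ 2 * (f j b - f j y) ^ 2 with hN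
  have hN0 : 0 ≤ N := Finset.sum_nonneg fun b _ =>
    mul_nonneg (mul_nonneg (he b).le (sq_nonneg _)) (sq_nonneg _)
  have e2 : ∑ z, (-(W z).im) * ‖((f j z - f j y : ℝ) : ℂ) * gw A W y z‖ ^ 2 = N := by
    rw [hN]
    refine Finset.sum_congr rfl fun z _ => ?_
    rw [norm_mul, Complex.norm_real, Real.norm_eq_abs, mul_pow, sq_abs]
    ring
  have e3 : ∑ x, (-(W x).im) * ‖((lh x * (f j x - f j y) : ℝ) : ℂ) * gw A W y x‖ ^ 2 ≤
      K ^ 2 * N := by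
    rw [hN, Finset.mul_sum]
    refine Finset.sum_le_sum fun x _ => ?_
    rw [norm_mul, Complex.norm_real, Real.norm_eq_abs, mul_pow, sq_abs, mul_pow]
    have h2 : lh x ^ 2 ≤ K ^ 2 := pow_le_pow_left₀ (h0 x) (h1 x) 2
    have h3 : 0 ≤ (-(W x).im) * ‖gw A W y x‖ ^ 2 * (f j x - f j y) ^ 2 :=
      mul_nonneg (mul_nonneg (he x).le (sq_nonneg _)) (sq_nonneg _)
    nlinarith [mul_le_mul_of_nonneg_right h2 h3]
  rw [e2]
  calc Real.sqrt (∑ x, (-(W x).im) * ‖((lh x * (f j x - f j y) : ℝ) : ℂ) * gw A W y x‖ ^ 2) *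
        Real.sqrt N ≤ Real.sqrt (K ^ 2 * N) * Real.sqrt N :=
        mul_le_mul_of_nonneg_right (Real.sqrt_le_sqrt e3) (Real.sqrt_nonneg _)
    _ = K * N := by
        rw [Real.sqrt_mul (sq_nonneg K), Real.sqrt_sq hK, mul_assoc, Real.mul_self_sqrt hN0]

/-- **(2a) of 775** -/
theorem frozen_pol (hA : A.IsSymm) (hW : ∀ x, (W x).im < 0) (y : ι) {κ : Type*} [Fintype κ]
    (f : κ → ι → ℝ) (h : ι → ι → ℝ) (hh : ∀ x b, h x b = ∑ j, (f j x - f j b) ^ 2)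
    {K r2 : ℝ} (lh : ι → ℝ) (h0 : ∀ x, 0 ≤ lh x) (h1 : ∀ x, lh x ≤ K) (hr : ∀ x, h x y ≤ r2) :
    ‖∑ x, ((-(W x).im * lh x : ℝ) : ℂ) * gw A W y x *
        ∑ b, ((-(W b).im * h x b : ℝ) : ℂ) * (conj (Gr A W x b) * gw A W y b)‖ ≤
      3 * K * (∑ b, (-(W b).im) * ‖gw A W y b‖ ^ 2 * h b y) +
        Real.sqrt (r2 * ∑ b, (-(W b).im) * ‖gw A W y b‖ ^ 2 * h b y) *
          Real.sqrt (∑ x, (-(W x).im) * lh x ^ 2 * ‖gw A W y x‖ ^ 2) := by
  have he : ∀ x, 0 < -(W x).im := fun x => by linarith [hW x]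
  have hK : 0 ≤ K := (h0 y).trans (h1 y)
  have hh0 : ∀ x b, 0 ≤ h x b := fun x b => by
    rw [hh]
    exact Finset.sum_nonneg fun j _ => sq_nonneg _
  set N := ∑ b, (-(W b).im) * ‖gw A W y b‖ ^ 2 * h b y with hN
  rw [split f h hh y lh]
  -- first piece
  have p1 : ‖∑ x, ((-(W x).im * lh x * h x y : ℝ) : ℂ) * gw A W y x *
        ∑ b, ((-(W b).im : ℝ) : ℂ) * (conj (Gr A W x b) * gw A W y b)‖ ≤ K * N := by
    rw [hN, Finset.mul_sum]
    refine (norm_sum_le _ _).trans (Finset.sum_le_sum fun x _ => ?_)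
    rw [norm_mul, norm_mul, Complex.norm_real, Real.norm_eq_abs,
      abs_of_nonneg (mul_nonneg (mul_nonneg (he x).le (h0 x)) (hh0 x y))]
    have h2 := norm_ward_le hA hW y x
    have h3 : -(W x).im * lh x * h x y * ‖gw A W y x‖ *
        ‖∑ b, ((-(W b).im : ℝ) : ℂ) * (conj (Gr A W x b) * gw A W y b)‖ ≤
        -(W x).im * lh x * h x y * ‖gw A W y x‖ * ‖gw A W y x‖ :=
      mul_le_mul_of_nonneg_left h2 (mul_nonneg
        (mul_nonneg (mul_nonneg (he x).le (h0 x)) (hh0 x y)) (norm_nonneg _))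
    refine h3.trans ?_
    have h4 : 0 ≤ -(W x).im * h x y * ‖gw A W y x‖ ^ 2 :=
      mul_nonneg (mul_nonneg (he x).le (hh0 x y)) (sq_nonneg _)
    nlinarith [mul_le_mul_of_nonneg_right (h1 x) h4]
  -- second piece
  have p2 : ‖∑ x, ((-(W x).im : ℝ) : ℂ) * ((lh x : ℂ) * gw A W y x) *
        ∑ b, ((-(W b).im : ℝ) : ℂ) * (conj (Gr A W x b) * ((h b y : ℂ) * gw A W y b))‖ ≤
      Real.sqrt (r2 * N) * Real.sqrt (∑ x, (-(W x).im) * lh x ^ 2 * ‖gw A W y x‖ ^ 2) := by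
    refine (pair_le hA hW (fun x => (lh x : ℂ) * gw A W y x)
      (fun b => (h b y : ℂ) * gw A W y b)).trans ?_
    rw [mul_comm]
    refine mul_le_mul (Real.sqrt_le_sqrt ?_) (le_of_eq (congrArg Real.sqrt ?_))
      (Real.sqrt_nonneg _) (Real.sqrt_nonneg _)
    · rw [hN, Finset.mul_sum]
      refine Finset.sum_le_sum fun b _ => ?_
      rw [norm_mul, Complex.norm_real, Real.norm_eq_abs, mul_pow, sq_abs]
      have h4 : 0 ≤ -(W b).im * ‖gw A W y b‖ ^ 2 * h b y :=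
        mul_nonneg (mul_nonneg (he b).le (sq_nonneg _)) (hh0 b y)
      nlinarith [mul_le_mul_of_nonneg_right (hr b) h4]
    · refine Finset.sum_congr rfl fun x _ => ?_
      rw [norm_mul, Complex.norm_real, Real.norm_eq_abs, mul_pow, sq_abs]
      ring
  -- cross piece
  have p3 := cross_le hA hW y f h hh lh h0 h1
  rw [← hN] at p3
  refine (norm_sub_le _ _).trans ?_
  have p4 : ‖(2 : ℂ) * ∑ j, ∑ x, ((-(W x).im : ℝ) : ℂ) *
      ((lh x * (f j x - f j y) : ℝ) * gw A W y x) *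
        ∑ b, ((-(W b).im : ℝ) : ℂ) * (conj (Gr A W x b) * (((f j b - f j y : ℝ) : ℂ) *
          gw A W y b))‖ ≤ 2 * (K * N) := by
    rw [norm_mul, Complex.norm_ofNat]
    exact mul_le_mul_of_nonneg_left p3 (by norm_num)
  have p5 := (norm_add_le (∑ x, ((-(W x).im * lh x * h x y : ℝ) : ℂ) * gw A W y x *
        ∑ b, ((-(W b).im : ℝ) : ℂ) * (conj (Gr A W x b) * gw A W y b))
      (∑ x, ((-(W x).im : ℝ) : ℂ) * ((lh x : ℂ) * gw A W y x) *
        ∑ b, ((-(W b).im : ℝ) : ℂ) * (conj (Gr A W x b) * ((h b y : ℂ) * gw A W y b))))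
  linarith

/-- **(2a) of 775, constant multiplier** -/
theorem const_pol (hA : A.IsSymm) (hW : ∀ x, (W x).im < 0) (y : ι) {κ : Type*} [Fintype κ]
    (f : κ → ι → ℝ) (h : ι → ι → ℝ) (hh : ∀ x b, h x b = ∑ j, (f j x - f j b) ^ 2) :
    ‖∑ x, ((-(W x).im : ℝ) : ℂ) * gw A W y x *
        ∑ b, ((-(W b).im * h x b : ℝ) : ℂ) * (conj (Gr A W x b) * gw A W y b)‖ ≤
      4 * ∑ b, (-(W b).im) * ‖gw A W y b‖ ^ 2 * h b y := by
  have he : ∀ x, 0 < -(W x).im := fun x => by linarith [hW x]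
  have hh0 : ∀ x b, 0 ≤ h x b := fun x b => by
    rw [hh]
    exact Finset.sum_nonneg fun j _ => sq_nonneg _
  set N := ∑ b, (-(W b).im) * ‖gw A W y b‖ ^ 2 * h b y with hN
  have e0 : ∑ x, ((-(W x).im : ℝ) : ℂ) * gw A W y x *
        ∑ b, ((-(W b).im * h x b : ℝ) : ℂ) * (conj (Gr A W x b) * gw A W y b) =
      ∑ x, ((-(W x).im * (fun _ => (1 : ℝ)) x : ℝ) : ℂ) * gw A W y x *
        ∑ b, ((-(W b).im * h x b : ℝ) : ℂ) * (conj (Gr A W x b) * gw A W y b) := by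
    simp
  rw [e0, split f h hh y (fun _ => (1 : ℝ))]
  have p1 : ‖∑ x, ((-(W x).im * (fun _ => (1 : ℝ)) x * h x y : ℝ) : ℂ) * gw A W y x *
        ∑ b, ((-(W b).im : ℝ) : ℂ) * (conj (Gr A W x b) * gw A W y b)‖ ≤ N := by
    rw [hN]
    refine (norm_sum_le _ _).trans (Finset.sum_le_sum fun x _ => ?_)
    rw [norm_mul, norm_mul, Complex.norm_real, Real.norm_eq_abs,
      abs_of_nonneg (mul_nonneg (mul_nonneg (he x).le zero_le_one) (hh0 x y))]
    have h2 := norm_ward_le hA hW y x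
    have h3 : -(W x).im * 1 * h x y * ‖gw A W y x‖ *
        ‖∑ b, ((-(W b).im : ℝ) : ℂ) * (conj (Gr A W x b) * gw A W y b)‖ ≤
        -(W x).im * 1 * h x y * ‖gw A W y x‖ * ‖gw A W y x‖ :=
      mul_le_mul_of_nonneg_left h2 (mul_nonneg
        (mul_nonneg (mul_nonneg (he x).le zero_le_one) (hh0 x y)) (norm_nonneg _))
    refine h3.trans (le_of_eq ?_)
    ring
  have p2 : ‖∑ x, ((-(W x).im : ℝ) : ℂ) * (((fun _ => (1 : ℝ)) x : ℂ) * gw A W y x) *
        ∑ b, ((-(W b).im : ℝ) : ℂ) * (conj (Gr A W x b) * ((h b y : ℂ) * gw A W y b))‖ ≤ N := by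
    have e1 : ∑ x, ((-(W x).im : ℝ) : ℂ) * (((fun _ => (1 : ℝ)) x : ℂ) * gw A W y x) *
        ∑ b, ((-(W b).im : ℝ) : ℂ) * (conj (Gr A W x b) * ((h b y : ℂ) * gw A W y b)) =
        ∑ b, ((-(W b).im * h b y : ℝ) : ℂ) * gw A W y b *
          ∑ x, ((-(W x).im : ℝ) : ℂ) * (gw A W y x * conj (Gr A W x b)) := by
      simp only [Finset.mul_sum]
      rw [Finset.sum_comm]
      refine Finset.sum_congr rfl fun b _ => Finset.sum_congr rfl fun x _ => ?_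
      push_cast
      ring
    rw [e1, hN]
    refine (norm_sum_le _ _).trans (Finset.sum_le_sum fun b _ => ?_)
    rw [norm_mul, norm_mul, Complex.norm_real, Real.norm_eq_abs,
      abs_of_nonneg (mul_nonneg (he b).le (hh0 b y))]
    have h2 := norm_ward_le' hA hW y b
    have h3 : -(W b).im * h b y * ‖gw A W y b‖ *
        ‖∑ x, ((-(W x).im : ℝ) : ℂ) * (gw A W y x * conj (Gr A W x b))‖ ≤
        -(W b).im * h b y * ‖gw A W y b‖ * ‖gw A W y b‖ :=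
      mul_le_mul_of_nonneg_left h2 (mul_nonneg (mul_nonneg (he b).le (hh0 b y)) (norm_nonneg _))
    refine h3.trans (le_of_eq ?_)
    ring
  have p3 := cross_le hA hW y f h hh (K := 1) (fun _ => (1 : ℝ)) (fun _ => zero_le_one)
    (fun _ => le_rfl)
  rw [← hN, one_mul] at p3
  refine (norm_sub_le _ _).trans ?_
  have p4 : ‖(2 : ℂ) * ∑ j, ∑ x, ((-(W x).im : ℝ) : ℂ) *
      (((fun _ => (1 : ℝ)) x * (f j x - f j y) : ℝ) * gw A W y x) *
        ∑ b, ((-(W b).im : ℝ) : ℂ) * (conj (Gr A W x b) * (((f j b - f j y : ℝ) : ℂ) *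
          gw A W y b))‖ ≤ 2 * N := by
    rw [norm_mul, Complex.norm_ofNat]
    exact mul_le_mul_of_nonneg_left p3 (by norm_num)
  have p5 := (norm_add_le (∑ x, ((-(W x).im * (fun _ => (1 : ℝ)) x * h x y : ℝ) : ℂ) *
        gw A W y x * ∑ b, ((-(W b).im : ℝ) : ℂ) * (conj (Gr A W x b) * gw A W y b))
      (∑ x, ((-(W x).im : ℝ) : ℂ) * (((fun _ => (1 : ℝ)) x : ℂ) * gw A W y x) *
        ∑ b, ((-(W b).im : ℝ) : ℂ) * (conj (Gr A W x b) * ((h b y : ℂ) * gw A W y b))))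
  linarith

end P365T2.H761
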